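import Vale.Agent.P062.Data.T

namespace Vale.Agent.P062.Data

theorem c9_0 : checkTreeT T t9_0 = true := by decide +kernel

theorem c9_256 : checkTreeT T t9_256 = true := by decide +kernel

theorem c8_0 : checkTreeT T t8_0 = true := and_trueT c9_0 c9_256

theorem c9_128 : checkTreeT T t9_128 = true := by decide +kernel

theorem c9_384 : checkTreeT T t9_384 = true := by decide +kernel

theorem c8_128 : checkTreeT T t8_128 = true := and_trueT c9_128 c9_384

theorem c7_0 : checkTreeT T t7_0 = true := and_trueT c8_0 c8_128

theorem c9_64 : checkTreeT T t9_64 = true := by decide +kernel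

theorem c9_320 : checkTreeT T t9_320 = true := by decide +kernel

theorem c8_64 : checkTreeT T t8_64 = true := and_trueT c9_64 c9_320

theorem c9_192 : checkTreeT T t9_192 = true := by decide +kernel

theorem c9_448 : checkTreeT T t9_448 = true := by decide +kernel

theorem c8_192 : checkTreeT T t8_192 = true := and_trueT c9_192 c9_448

theorem c7_64 : checkTreeT T t7_64 = true := and_trueT c8_64 c8_192

theorem c6_0 : checkTreeT T t6_0 = true := and_trueT c7_0 c7_64

theorem c9_32 : checkTreeT T t9_32 = true := by decide +kernel

theorem c9_288 : checkTreeT T t9_288 = true := by decide +kernel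

theorem c8_32 : checkTreeT T t8_32 = true := and_trueT c9_32 c9_288

theorem c9_160 : checkTreeT T t9_160 = true := by decide +kernel

theorem c9_416 : checkTreeT T t9_416 = true := by decide +kernel

theorem c8_160 : checkTreeT T t8_160 = true := and_trueT c9_160 c9_416

theorem c7_32 : checkTreeT T t7_32 = true := and_trueT c8_32 c8_160

theorem c9_96 : checkTreeT T t9_96 = true := by decide +kernel

theorem c9_352 : checkTreeT T t9_352 = true := by decide +kernel

theorem c8_96 : checkTreeT T t8_96 = true := and_trueT c9_96 c9_352

theorem c9_224 : checkTreeT T t9_224 = true := by decide +kernel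

theorem c9_480 : checkTreeT T t9_480 = true := by decide +kernel

theorem c8_224 : checkTreeT T t8_224 = true := and_trueT c9_224 c9_480

theorem c7_96 : checkTreeT T t7_96 = true := and_trueT c8_96 c8_224

theorem c6_32 : checkTreeT T t6_32 = true := and_trueT c7_32 c7_96

theorem c5_0 : checkTreeT T t5_0 = true := and_trueT c6_0 c6_32

theorem c9_16 : checkTreeT T t9_16 = true := by decide +kernel

theorem c9_272 : checkTreeT T t9_272 = true := by decide +kernel

theorem c8_16 : checkTreeT T t8_16 = true := and_trueT c9_16 c9_272

theorem c9_144 : checkTreeT T t9_144 = true := by decide +kernel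

theorem c9_400 : checkTreeT T t9_400 = true := by decide +kernel

theorem c8_144 : checkTreeT T t8_144 = true := and_trueT c9_144 c9_400

theorem c7_16 : checkTreeT T t7_16 = true := and_trueT c8_16 c8_144

theorem c9_80 : checkTreeT T t9_80 = true := by decide +kernel

theorem c9_336 : checkTreeT T t9_336 = true := by decide +kernel

theorem c8_80 : checkTreeT T t8_80 = true := and_trueT c9_80 c9_336

theorem c9_208 : checkTreeT T t9_208 = true := by decide +kernel

theorem c9_464 : checkTreeT T t9_464 = true := by decide +kernel

theorem c8_208 : checkTreeT T t8_208 = true := and_trueT c9_208 c9_464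

theorem c7_80 : checkTreeT T t7_80 = true := and_trueT c8_80 c8_208

theorem c6_16 : checkTreeT T t6_16 = true := and_trueT c7_16 c7_80

theorem c9_48 : checkTreeT T t9_48 = true := by decide +kernel

theorem c9_304 : checkTreeT T t9_304 = true := by decide +kernel

theorem c8_48 : checkTreeT T t8_48 = true := and_trueT c9_48 c9_304

theorem c9_176 : checkTreeT T t9_176 = true := by decide +kernel

theorem c9_432 : checkTreeT T t9_432 = true := by decide +kernel

theorem c8_176 : checkTreeT T t8_176 = true := and_trueT c9_176 c9_432

theorem c7_48 : checkTreeT T t7_48 = true := and_trueT c8_48 c8_176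

theorem c9_112 : checkTreeT T t9_112 = true := by decide +kernel

theorem c9_368 : checkTreeT T t9_368 = true := by decide +kernel

theorem c8_112 : checkTreeT T t8_112 = true := and_trueT c9_112 c9_368

theorem c9_240 : checkTreeT T t9_240 = true := by decide +kernel

theorem c9_496 : checkTreeT T t9_496 = true := by decide +kernel

theorem c8_240 : checkTreeT T t8_240 = true := and_trueT c9_240 c9_496

theorem c7_112 : checkTreeT T t7_112 = true := and_trueT c8_112 c8_240

theorem c6_48 : checkTreeT T t6_48 = true := and_trueT c7_48 c7_112

theorem c5_16 : checkTreeT T t5_16 = true := and_trueT c6_16 c6_48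

theorem c4_0 : checkTreeT T t4_0 = true := and_trueT c5_0 c5_16

theorem c9_8 : checkTreeT T t9_8 = true := by decide +kernel

theorem c9_264 : checkTreeT T t9_264 = true := by decide +kernel

theorem c8_8 : checkTreeT T t8_8 = true := and_trueT c9_8 c9_264

theorem c9_136 : checkTreeT T t9_136 = true := by decide +kernel

theorem c9_392 : checkTreeT T t9_392 = true := by decide +kernel

theorem c8_136 : checkTreeT T t8_136 = true := and_trueT c9_136 c9_392

theorem c7_8 : checkTreeT T t7_8 = true := and_trueT c8_8 c8_136

theorem c9_72 : checkTreeT T t9_72 = true := by decide +kernel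

theorem c9_328 : checkTreeT T t9_328 = true := by decide +kernel

theorem c8_72 : checkTreeT T t8_72 = true := and_trueT c9_72 c9_328

theorem c9_200 : checkTreeT T t9_200 = true := by decide +kernel

theorem c9_456 : checkTreeT T t9_456 = true := by decide +kernel

theorem c8_200 : checkTreeT T t8_200 = true := and_trueT c9_200 c9_456

theorem c7_72 : checkTreeT T t7_72 = true := and_trueT c8_72 c8_200

theorem c6_8 : checkTreeT T t6_8 = true := and_trueT c7_8 c7_72

theorem c9_40 : checkTreeT T t9_40 = true := by decide +kernel

theorem c9_296 : checkTreeT T t9_296 = true := by decide +kernel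

theorem c8_40 : checkTreeT T t8_40 = true := and_trueT c9_40 c9_296

theorem c9_168 : checkTreeT T t9_168 = true := by decide +kernel

theorem c9_424 : checkTreeT T t9_424 = true := by decide +kernel

theorem c8_168 : checkTreeT T t8_168 = true := and_trueT c9_168 c9_424

theorem c7_40 : checkTreeT T t7_40 = true := and_trueT c8_40 c8_168

theorem c9_104 : checkTreeT T t9_104 = true := by decide +kernel

theorem c9_360 : checkTreeT T t9_360 = true := by decide +kernel

theorem c8_104 : checkTreeT T t8_104 = true := and_trueT c9_104 c9_360

theorem c9_232 : checkTreeT T t9_232 = true := by decide +kernel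

theorem c9_488 : checkTreeT T t9_488 = true := by decide +kernel

theorem c8_232 : checkTreeT T t8_232 = true := and_trueT c9_232 c9_488

theorem c7_104 : checkTreeT T t7_104 = true := and_trueT c8_104 c8_232

theorem c6_40 : checkTreeT T t6_40 = true := and_trueT c7_40 c7_104

theorem c5_8 : checkTreeT T t5_8 = true := and_trueT c6_8 c6_40

theorem c9_24 : checkTreeT T t9_24 = true := by decide +kernel

theorem c9_280 : checkTreeT T t9_280 = true := by decide +kernel

theorem c8_24 : checkTreeT T t8_24 = true := and_trueT c9_24 c9_280

theorem c9_152 : checkTreeT T t9_152 = true := by decide +kernel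

theorem c9_408 : checkTreeT T t9_408 = true := by decide +kernel

theorem c8_152 : checkTreeT T t8_152 = true := and_trueT c9_152 c9_408

theorem c7_24 : checkTreeT T t7_24 = true := and_trueT c8_24 c8_152

theorem c9_88 : checkTreeT T t9_88 = true := by decide +kernel

theorem c9_344 : checkTreeT T t9_344 = true := by decide +kernel

theorem c8_88 : checkTreeT T t8_88 = true := and_trueT c9_88 c9_344

theorem c9_216 : checkTreeT T t9_216 = true := by decide +kernel

theorem c9_472 : checkTreeT T t9_472 = true := by decide +kernel

theorem c8_216 : checkTreeT T t8_216 = true := and_trueT c9_216 c9_472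

theorem c7_88 : checkTreeT T t7_88 = true := and_trueT c8_88 c8_216

theorem c6_24 : checkTreeT T t6_24 = true := and_trueT c7_24 c7_88

theorem c9_56 : checkTreeT T t9_56 = true := by decide +kernel

theorem c9_312 : checkTreeT T t9_312 = true := by decide +kernel

theorem c8_56 : checkTreeT T t8_56 = true := and_trueT c9_56 c9_312

theorem c9_184 : checkTreeT T t9_184 = true := by decide +kernel

theorem c9_440 : checkTreeT T t9_440 = true := by decide +kernel

theorem c8_184 : checkTreeT T t8_184 = true := and_trueT c9_184 c9_440

theorem c7_56 : checkTreeT T t7_56 = true := and_trueT c8_56 c8_184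

theorem c9_120 : checkTreeT T t9_120 = true := by decide +kernel

theorem c9_376 : checkTreeT T t9_376 = true := by decide +kernel

theorem c8_120 : checkTreeT T t8_120 = true := and_trueT c9_120 c9_376

theorem c9_248 : checkTreeT T t9_248 = true := by decide +kernel

theorem c9_504 : checkTreeT T t9_504 = true := by decide +kernel

theorem c8_248 : checkTreeT T t8_248 = true := and_trueT c9_248 c9_504

theorem c7_120 : checkTreeT T t7_120 = true := and_trueT c8_120 c8_248

theorem c6_56 : checkTreeT T t6_56 = true := and_trueT c7_56 c7_120

theorem c5_24 : checkTreeT T t5_24 = true := and_trueT c6_24 c6_56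

theorem c4_8 : checkTreeT T t4_8 = true := and_trueT c5_8 c5_24

theorem c3_0 : checkTreeT T t3_0 = true := and_trueT c4_0 c4_8

end Vale.Agent.P062.Data
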