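import Vale.Agent.P062.Data.T

namespace Vale.Agent.P062.Data

theorem c9_1 : checkTreeT T t9_1 = true := by decide +kernel

theorem c9_257 : checkTreeT T t9_257 = true := by decide +kernel

theorem c8_1 : checkTreeT T t8_1 = true := and_trueT c9_1 c9_257

theorem c9_129 : checkTreeT T t9_129 = true := by decide +kernel

theorem c9_385 : checkTreeT T t9_385 = true := by decide +kernel

theorem c8_129 : checkTreeT T t8_129 = true := and_trueT c9_129 c9_385

theorem c7_1 : checkTreeT T t7_1 = true := and_trueT c8_1 c8_129

theorem c9_65 : checkTreeT T t9_65 = true := by decide +kernel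

theorem c9_321 : checkTreeT T t9_321 = true := by decide +kernel

theorem c8_65 : checkTreeT T t8_65 = true := and_trueT c9_65 c9_321

theorem c9_193 : checkTreeT T t9_193 = true := by decide +kernel

theorem c9_449 : checkTreeT T t9_449 = true := by decide +kernel

theorem c8_193 : checkTreeT T t8_193 = true := and_trueT c9_193 c9_449

theorem c7_65 : checkTreeT T t7_65 = true := and_trueT c8_65 c8_193

theorem c6_1 : checkTreeT T t6_1 = true := and_trueT c7_1 c7_65

theorem c9_33 : checkTreeT T t9_33 = true := by decide +kernel

theorem c9_289 : checkTreeT T t9_289 = true := by decide +kernel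

theorem c8_33 : checkTreeT T t8_33 = true := and_trueT c9_33 c9_289

theorem c9_161 : checkTreeT T t9_161 = true := by decide +kernel

theorem c9_417 : checkTreeT T t9_417 = true := by decide +kernel

theorem c8_161 : checkTreeT T t8_161 = true := and_trueT c9_161 c9_417

theorem c7_33 : checkTreeT T t7_33 = true := and_trueT c8_33 c8_161

theorem c9_97 : checkTreeT T t9_97 = true := by decide +kernel

theorem c9_353 : checkTreeT T t9_353 = true := by decide +kernel

theorem c8_97 : checkTreeT T t8_97 = true := and_trueT c9_97 c9_353

theorem c9_225 : checkTreeT T t9_225 = true := by decide +kernel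

theorem c9_481 : checkTreeT T t9_481 = true := by decide +kernel

theorem c8_225 : checkTreeT T t8_225 = true := and_trueT c9_225 c9_481

theorem c7_97 : checkTreeT T t7_97 = true := and_trueT c8_97 c8_225

theorem c6_33 : checkTreeT T t6_33 = true := and_trueT c7_33 c7_97

theorem c5_1 : checkTreeT T t5_1 = true := and_trueT c6_1 c6_33

theorem c9_17 : checkTreeT T t9_17 = true := by decide +kernel

theorem c9_273 : checkTreeT T t9_273 = true := by decide +kernel

theorem c8_17 : checkTreeT T t8_17 = true := and_trueT c9_17 c9_273

theorem c9_145 : checkTreeT T t9_145 = true := by decide +kernel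

theorem c9_401 : checkTreeT T t9_401 = true := by decide +kernel

theorem c8_145 : checkTreeT T t8_145 = true := and_trueT c9_145 c9_401

theorem c7_17 : checkTreeT T t7_17 = true := and_trueT c8_17 c8_145

theorem c9_81 : checkTreeT T t9_81 = true := by decide +kernel

theorem c9_337 : checkTreeT T t9_337 = true := by decide +kernel

theorem c8_81 : checkTreeT T t8_81 = true := and_trueT c9_81 c9_337

theorem c9_209 : checkTreeT T t9_209 = true := by decide +kernel

theorem c9_465 : checkTreeT T t9_465 = true := by decide +kernel

theorem c8_209 : checkTreeT T t8_209 = true := and_trueT c9_209 c9_465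

theorem c7_81 : checkTreeT T t7_81 = true := and_trueT c8_81 c8_209

theorem c6_17 : checkTreeT T t6_17 = true := and_trueT c7_17 c7_81

theorem c9_49 : checkTreeT T t9_49 = true := by decide +kernel

theorem c9_305 : checkTreeT T t9_305 = true := by decide +kernel

theorem c8_49 : checkTreeT T t8_49 = true := and_trueT c9_49 c9_305

theorem c9_177 : checkTreeT T t9_177 = true := by decide +kernel

theorem c9_433 : checkTreeT T t9_433 = true := by decide +kernel

theorem c8_177 : checkTreeT T t8_177 = true := and_trueT c9_177 c9_433

theorem c7_49 : checkTreeT T t7_49 = true := and_trueT c8_49 c8_177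

theorem c9_113 : checkTreeT T t9_113 = true := by decide +kernel

theorem c9_369 : checkTreeT T t9_369 = true := by decide +kernel

theorem c8_113 : checkTreeT T t8_113 = true := and_trueT c9_113 c9_369

theorem c9_241 : checkTreeT T t9_241 = true := by decide +kernel

theorem c9_497 : checkTreeT T t9_497 = true := by decide +kernel

theorem c8_241 : checkTreeT T t8_241 = true := and_trueT c9_241 c9_497

theorem c7_113 : checkTreeT T t7_113 = true := and_trueT c8_113 c8_241

theorem c6_49 : checkTreeT T t6_49 = true := and_trueT c7_49 c7_113

theorem c5_17 : checkTreeT T t5_17 = true := and_trueT c6_17 c6_49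

theorem c4_1 : checkTreeT T t4_1 = true := and_trueT c5_1 c5_17

theorem c9_9 : checkTreeT T t9_9 = true := by decide +kernel

theorem c9_265 : checkTreeT T t9_265 = true := by decide +kernel

theorem c8_9 : checkTreeT T t8_9 = true := and_trueT c9_9 c9_265

theorem c9_137 : checkTreeT T t9_137 = true := by decide +kernel

theorem c9_393 : checkTreeT T t9_393 = true := by decide +kernel

theorem c8_137 : checkTreeT T t8_137 = true := and_trueT c9_137 c9_393

theorem c7_9 : checkTreeT T t7_9 = true := and_trueT c8_9 c8_137

theorem c9_73 : checkTreeT T t9_73 = true := by decide +kernel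

theorem c9_329 : checkTreeT T t9_329 = true := by decide +kernel

theorem c8_73 : checkTreeT T t8_73 = true := and_trueT c9_73 c9_329

theorem c9_201 : checkTreeT T t9_201 = true := by decide +kernel

theorem c9_457 : checkTreeT T t9_457 = true := by decide +kernel

theorem c8_201 : checkTreeT T t8_201 = true := and_trueT c9_201 c9_457

theorem c7_73 : checkTreeT T t7_73 = true := and_trueT c8_73 c8_201

theorem c6_9 : checkTreeT T t6_9 = true := and_trueT c7_9 c7_73

theorem c9_41 : checkTreeT T t9_41 = true := by decide +kernel

theorem c9_297 : checkTreeT T t9_297 = true := by decide +kernel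

theorem c8_41 : checkTreeT T t8_41 = true := and_trueT c9_41 c9_297

theorem c9_169 : checkTreeT T t9_169 = true := by decide +kernel

theorem c9_425 : checkTreeT T t9_425 = true := by decide +kernel

theorem c8_169 : checkTreeT T t8_169 = true := and_trueT c9_169 c9_425

theorem c7_41 : checkTreeT T t7_41 = true := and_trueT c8_41 c8_169

theorem c9_105 : checkTreeT T t9_105 = true := by decide +kernel

theorem c9_361 : checkTreeT T t9_361 = true := by decide +kernel

theorem c8_105 : checkTreeT T t8_105 = true := and_trueT c9_105 c9_361

theorem c9_233 : checkTreeT T t9_233 = true := by decide +kernel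

theorem c9_489 : checkTreeT T t9_489 = true := by decide +kernel

theorem c8_233 : checkTreeT T t8_233 = true := and_trueT c9_233 c9_489

theorem c7_105 : checkTreeT T t7_105 = true := and_trueT c8_105 c8_233

theorem c6_41 : checkTreeT T t6_41 = true := and_trueT c7_41 c7_105

theorem c5_9 : checkTreeT T t5_9 = true := and_trueT c6_9 c6_41

theorem c9_25 : checkTreeT T t9_25 = true := by decide +kernel

theorem c9_281 : checkTreeT T t9_281 = true := by decide +kernel

theorem c8_25 : checkTreeT T t8_25 = true := and_trueT c9_25 c9_281

theorem c9_153 : checkTreeT T t9_153 = true := by decide +kernel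

theorem c9_409 : checkTreeT T t9_409 = true := by decide +kernel

theorem c8_153 : checkTreeT T t8_153 = true := and_trueT c9_153 c9_409

theorem c7_25 : checkTreeT T t7_25 = true := and_trueT c8_25 c8_153

theorem c9_89 : checkTreeT T t9_89 = true := by decide +kernel

theorem c9_345 : checkTreeT T t9_345 = true := by decide +kernel

theorem c8_89 : checkTreeT T t8_89 = true := and_trueT c9_89 c9_345

theorem c9_217 : checkTreeT T t9_217 = true := by decide +kernel

theorem c9_473 : checkTreeT T t9_473 = true := by decide +kernel

theorem c8_217 : checkTreeT T t8_217 = true := and_trueT c9_217 c9_473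

theorem c7_89 : checkTreeT T t7_89 = true := and_trueT c8_89 c8_217

theorem c6_25 : checkTreeT T t6_25 = true := and_trueT c7_25 c7_89

theorem c9_57 : checkTreeT T t9_57 = true := by decide +kernel

theorem c9_313 : checkTreeT T t9_313 = true := by decide +kernel

theorem c8_57 : checkTreeT T t8_57 = true := and_trueT c9_57 c9_313

theorem c9_185 : checkTreeT T t9_185 = true := by decide +kernel

theorem c9_441 : checkTreeT T t9_441 = true := by decide +kernel

theorem c8_185 : checkTreeT T t8_185 = true := and_trueT c9_185 c9_441

theorem c7_57 : checkTreeT T t7_57 = true := and_trueT c8_57 c8_185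

theorem c9_121 : checkTreeT T t9_121 = true := by decide +kernel

theorem c9_377 : checkTreeT T t9_377 = true := by decide +kernel

theorem c8_121 : checkTreeT T t8_121 = true := and_trueT c9_121 c9_377

theorem c9_249 : checkTreeT T t9_249 = true := by decide +kernel

theorem c9_505 : checkTreeT T t9_505 = true := by decide +kernel

theorem c8_249 : checkTreeT T t8_249 = true := and_trueT c9_249 c9_505

theorem c7_121 : checkTreeT T t7_121 = true := and_trueT c8_121 c8_249

theorem c6_57 : checkTreeT T t6_57 = true := and_trueT c7_57 c7_121

theorem c5_25 : checkTreeT T t5_25 = true := and_trueT c6_25 c6_57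

theorem c4_9 : checkTreeT T t4_9 = true := and_trueT c5_9 c5_25

theorem c3_1 : checkTreeT T t3_1 = true := and_trueT c4_1 c4_9

end Vale.Agent.P062.Data
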