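import Vale.Agent.P062.Data.T

namespace Vale.Agent.P062.Data

theorem c9_2 : checkTreeT T t9_2 = true := by decide +kernel

theorem c9_258 : checkTreeT T t9_258 = true := by decide +kernel

theorem c8_2 : checkTreeT T t8_2 = true := and_trueT c9_2 c9_258

theorem c9_130 : checkTreeT T t9_130 = true := by decide +kernel

theorem c9_386 : checkTreeT T t9_386 = true := by decide +kernel

theorem c8_130 : checkTreeT T t8_130 = true := and_trueT c9_130 c9_386

theorem c7_2 : checkTreeT T t7_2 = true := and_trueT c8_2 c8_130

theorem c9_66 : checkTreeT T t9_66 = true := by decide +kernel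

theorem c9_322 : checkTreeT T t9_322 = true := by decide +kernel

theorem c8_66 : checkTreeT T t8_66 = true := and_trueT c9_66 c9_322

theorem c9_194 : checkTreeT T t9_194 = true := by decide +kernel

theorem c9_450 : checkTreeT T t9_450 = true := by decide +kernel

theorem c8_194 : checkTreeT T t8_194 = true := and_trueT c9_194 c9_450

theorem c7_66 : checkTreeT T t7_66 = true := and_trueT c8_66 c8_194

theorem c6_2 : checkTreeT T t6_2 = true := and_trueT c7_2 c7_66

theorem c9_34 : checkTreeT T t9_34 = true := by decide +kernel

theorem c9_290 : checkTreeT T t9_290 = true := by decide +kernel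

theorem c8_34 : checkTreeT T t8_34 = true := and_trueT c9_34 c9_290

theorem c9_162 : checkTreeT T t9_162 = true := by decide +kernel

theorem c9_418 : checkTreeT T t9_418 = true := by decide +kernel

theorem c8_162 : checkTreeT T t8_162 = true := and_trueT c9_162 c9_418

theorem c7_34 : checkTreeT T t7_34 = true := and_trueT c8_34 c8_162

theorem c9_98 : checkTreeT T t9_98 = true := by decide +kernel

theorem c9_354 : checkTreeT T t9_354 = true := by decide +kernel

theorem c8_98 : checkTreeT T t8_98 = true := and_trueT c9_98 c9_354

theorem c9_226 : checkTreeT T t9_226 = true := by decide +kernel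

theorem c9_482 : checkTreeT T t9_482 = true := by decide +kernel

theorem c8_226 : checkTreeT T t8_226 = true := and_trueT c9_226 c9_482

theorem c7_98 : checkTreeT T t7_98 = true := and_trueT c8_98 c8_226

theorem c6_34 : checkTreeT T t6_34 = true := and_trueT c7_34 c7_98

theorem c5_2 : checkTreeT T t5_2 = true := and_trueT c6_2 c6_34

theorem c9_18 : checkTreeT T t9_18 = true := by decide +kernel

theorem c9_274 : checkTreeT T t9_274 = true := by decide +kernel

theorem c8_18 : checkTreeT T t8_18 = true := and_trueT c9_18 c9_274

theorem c9_146 : checkTreeT T t9_146 = true := by decide +kernel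

theorem c9_402 : checkTreeT T t9_402 = true := by decide +kernel

theorem c8_146 : checkTreeT T t8_146 = true := and_trueT c9_146 c9_402

theorem c7_18 : checkTreeT T t7_18 = true := and_trueT c8_18 c8_146

theorem c9_82 : checkTreeT T t9_82 = true := by decide +kernel

theorem c9_338 : checkTreeT T t9_338 = true := by decide +kernel

theorem c8_82 : checkTreeT T t8_82 = true := and_trueT c9_82 c9_338

theorem c9_210 : checkTreeT T t9_210 = true := by decide +kernel

theorem c9_466 : checkTreeT T t9_466 = true := by decide +kernel

theorem c8_210 : checkTreeT T t8_210 = true := and_trueT c9_210 c9_466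

theorem c7_82 : checkTreeT T t7_82 = true := and_trueT c8_82 c8_210

theorem c6_18 : checkTreeT T t6_18 = true := and_trueT c7_18 c7_82

theorem c9_50 : checkTreeT T t9_50 = true := by decide +kernel

theorem c9_306 : checkTreeT T t9_306 = true := by decide +kernel

theorem c8_50 : checkTreeT T t8_50 = true := and_trueT c9_50 c9_306

theorem c9_178 : checkTreeT T t9_178 = true := by decide +kernel

theorem c9_434 : checkTreeT T t9_434 = true := by decide +kernel

theorem c8_178 : checkTreeT T t8_178 = true := and_trueT c9_178 c9_434

theorem c7_50 : checkTreeT T t7_50 = true := and_trueT c8_50 c8_178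

theorem c9_114 : checkTreeT T t9_114 = true := by decide +kernel

theorem c9_370 : checkTreeT T t9_370 = true := by decide +kernel

theorem c8_114 : checkTreeT T t8_114 = true := and_trueT c9_114 c9_370

theorem c9_242 : checkTreeT T t9_242 = true := by decide +kernel

theorem c9_498 : checkTreeT T t9_498 = true := by decide +kernel

theorem c8_242 : checkTreeT T t8_242 = true := and_trueT c9_242 c9_498

theorem c7_114 : checkTreeT T t7_114 = true := and_trueT c8_114 c8_242

theorem c6_50 : checkTreeT T t6_50 = true := and_trueT c7_50 c7_114

theorem c5_18 : checkTreeT T t5_18 = true := and_trueT c6_18 c6_50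

theorem c4_2 : checkTreeT T t4_2 = true := and_trueT c5_2 c5_18

theorem c9_10 : checkTreeT T t9_10 = true := by decide +kernel

theorem c9_266 : checkTreeT T t9_266 = true := by decide +kernel

theorem c8_10 : checkTreeT T t8_10 = true := and_trueT c9_10 c9_266

theorem c9_138 : checkTreeT T t9_138 = true := by decide +kernel

theorem c9_394 : checkTreeT T t9_394 = true := by decide +kernel

theorem c8_138 : checkTreeT T t8_138 = true := and_trueT c9_138 c9_394

theorem c7_10 : checkTreeT T t7_10 = true := and_trueT c8_10 c8_138

theorem c9_74 : checkTreeT T t9_74 = true := by decide +kernel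

theorem c9_330 : checkTreeT T t9_330 = true := by decide +kernel

theorem c8_74 : checkTreeT T t8_74 = true := and_trueT c9_74 c9_330

theorem c9_202 : checkTreeT T t9_202 = true := by decide +kernel

theorem c9_458 : checkTreeT T t9_458 = true := by decide +kernel

theorem c8_202 : checkTreeT T t8_202 = true := and_trueT c9_202 c9_458

theorem c7_74 : checkTreeT T t7_74 = true := and_trueT c8_74 c8_202

theorem c6_10 : checkTreeT T t6_10 = true := and_trueT c7_10 c7_74

theorem c9_42 : checkTreeT T t9_42 = true := by decide +kernel

theorem c9_298 : checkTreeT T t9_298 = true := by decide +kernel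

theorem c8_42 : checkTreeT T t8_42 = true := and_trueT c9_42 c9_298

theorem c9_170 : checkTreeT T t9_170 = true := by decide +kernel

theorem c9_426 : checkTreeT T t9_426 = true := by decide +kernel

theorem c8_170 : checkTreeT T t8_170 = true := and_trueT c9_170 c9_426

theorem c7_42 : checkTreeT T t7_42 = true := and_trueT c8_42 c8_170

theorem c9_106 : checkTreeT T t9_106 = true := by decide +kernel

theorem c9_362 : checkTreeT T t9_362 = true := by decide +kernel

theorem c8_106 : checkTreeT T t8_106 = true := and_trueT c9_106 c9_362

theorem c9_234 : checkTreeT T t9_234 = true := by decide +kernel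

theorem c9_490 : checkTreeT T t9_490 = true := by decide +kernel

theorem c8_234 : checkTreeT T t8_234 = true := and_trueT c9_234 c9_490

theorem c7_106 : checkTreeT T t7_106 = true := and_trueT c8_106 c8_234

theorem c6_42 : checkTreeT T t6_42 = true := and_trueT c7_42 c7_106

theorem c5_10 : checkTreeT T t5_10 = true := and_trueT c6_10 c6_42

theorem c9_26 : checkTreeT T t9_26 = true := by decide +kernel

theorem c9_282 : checkTreeT T t9_282 = true := by decide +kernel

theorem c8_26 : checkTreeT T t8_26 = true := and_trueT c9_26 c9_282

theorem c9_154 : checkTreeT T t9_154 = true := by decide +kernel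

theorem c9_410 : checkTreeT T t9_410 = true := by decide +kernel

theorem c8_154 : checkTreeT T t8_154 = true := and_trueT c9_154 c9_410

theorem c7_26 : checkTreeT T t7_26 = true := and_trueT c8_26 c8_154

theorem c9_90 : checkTreeT T t9_90 = true := by decide +kernel

theorem c9_346 : checkTreeT T t9_346 = true := by decide +kernel

theorem c8_90 : checkTreeT T t8_90 = true := and_trueT c9_90 c9_346

theorem c9_218 : checkTreeT T t9_218 = true := by decide +kernel

theorem c9_474 : checkTreeT T t9_474 = true := by decide +kernel

theorem c8_218 : checkTreeT T t8_218 = true := and_trueT c9_218 c9_474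

theorem c7_90 : checkTreeT T t7_90 = true := and_trueT c8_90 c8_218

theorem c6_26 : checkTreeT T t6_26 = true := and_trueT c7_26 c7_90

theorem c9_58 : checkTreeT T t9_58 = true := by decide +kernel

theorem c9_314 : checkTreeT T t9_314 = true := by decide +kernel

theorem c8_58 : checkTreeT T t8_58 = true := and_trueT c9_58 c9_314

theorem c9_186 : checkTreeT T t9_186 = true := by decide +kernel

theorem c9_442 : checkTreeT T t9_442 = true := by decide +kernel

theorem c8_186 : checkTreeT T t8_186 = true := and_trueT c9_186 c9_442

theorem c7_58 : checkTreeT T t7_58 = true := and_trueT c8_58 c8_186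

theorem c9_122 : checkTreeT T t9_122 = true := by decide +kernel

theorem c9_378 : checkTreeT T t9_378 = true := by decide +kernel

theorem c8_122 : checkTreeT T t8_122 = true := and_trueT c9_122 c9_378

theorem c9_250 : checkTreeT T t9_250 = true := by decide +kernel

theorem c9_506 : checkTreeT T t9_506 = true := by decide +kernel

theorem c8_250 : checkTreeT T t8_250 = true := and_trueT c9_250 c9_506

theorem c7_122 : checkTreeT T t7_122 = true := and_trueT c8_122 c8_250

theorem c6_58 : checkTreeT T t6_58 = true := and_trueT c7_58 c7_122

theorem c5_26 : checkTreeT T t5_26 = true := and_trueT c6_26 c6_58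

theorem c4_10 : checkTreeT T t4_10 = true := and_trueT c5_10 c5_26

theorem c3_2 : checkTreeT T t3_2 = true := and_trueT c4_2 c4_10

end Vale.Agent.P062.Data
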