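import Vale.Agent.P062.Data.T

namespace Vale.Agent.P062.Data

theorem c9_3 : checkTreeT T t9_3 = true := by decide +kernel

theorem c9_259 : checkTreeT T t9_259 = true := by decide +kernel

theorem c8_3 : checkTreeT T t8_3 = true := and_trueT c9_3 c9_259

theorem c9_131 : checkTreeT T t9_131 = true := by decide +kernel

theorem c9_387 : checkTreeT T t9_387 = true := by decide +kernel

theorem c8_131 : checkTreeT T t8_131 = true := and_trueT c9_131 c9_387

theorem c7_3 : checkTreeT T t7_3 = true := and_trueT c8_3 c8_131

theorem c9_67 : checkTreeT T t9_67 = true := by decide +kernel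

theorem c9_323 : checkTreeT T t9_323 = true := by decide +kernel

theorem c8_67 : checkTreeT T t8_67 = true := and_trueT c9_67 c9_323

theorem c9_195 : checkTreeT T t9_195 = true := by decide +kernel

theorem c9_451 : checkTreeT T t9_451 = true := by decide +kernel

theorem c8_195 : checkTreeT T t8_195 = true := and_trueT c9_195 c9_451

theorem c7_67 : checkTreeT T t7_67 = true := and_trueT c8_67 c8_195

theorem c6_3 : checkTreeT T t6_3 = true := and_trueT c7_3 c7_67

theorem c9_35 : checkTreeT T t9_35 = true := by decide +kernel

theorem c9_291 : checkTreeT T t9_291 = true := by decide +kernel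

theorem c8_35 : checkTreeT T t8_35 = true := and_trueT c9_35 c9_291

theorem c9_163 : checkTreeT T t9_163 = true := by decide +kernel

theorem c9_419 : checkTreeT T t9_419 = true := by decide +kernel

theorem c8_163 : checkTreeT T t8_163 = true := and_trueT c9_163 c9_419

theorem c7_35 : checkTreeT T t7_35 = true := and_trueT c8_35 c8_163

theorem c9_99 : checkTreeT T t9_99 = true := by decide +kernel

theorem c9_355 : checkTreeT T t9_355 = true := by decide +kernel

theorem c8_99 : checkTreeT T t8_99 = true := and_trueT c9_99 c9_355

theorem c9_227 : checkTreeT T t9_227 = true := by decide +kernel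

theorem c9_483 : checkTreeT T t9_483 = true := by decide +kernel

theorem c8_227 : checkTreeT T t8_227 = true := and_trueT c9_227 c9_483

theorem c7_99 : checkTreeT T t7_99 = true := and_trueT c8_99 c8_227

theorem c6_35 : checkTreeT T t6_35 = true := and_trueT c7_35 c7_99

theorem c5_3 : checkTreeT T t5_3 = true := and_trueT c6_3 c6_35

theorem c9_19 : checkTreeT T t9_19 = true := by decide +kernel

theorem c9_275 : checkTreeT T t9_275 = true := by decide +kernel

theorem c8_19 : checkTreeT T t8_19 = true := and_trueT c9_19 c9_275

theorem c9_147 : checkTreeT T t9_147 = true := by decide +kernel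

theorem c9_403 : checkTreeT T t9_403 = true := by decide +kernel

theorem c8_147 : checkTreeT T t8_147 = true := and_trueT c9_147 c9_403

theorem c7_19 : checkTreeT T t7_19 = true := and_trueT c8_19 c8_147

theorem c9_83 : checkTreeT T t9_83 = true := by decide +kernel

theorem c9_339 : checkTreeT T t9_339 = true := by decide +kernel

theorem c8_83 : checkTreeT T t8_83 = true := and_trueT c9_83 c9_339

theorem c9_211 : checkTreeT T t9_211 = true := by decide +kernel

theorem c9_467 : checkTreeT T t9_467 = true := by decide +kernel

theorem c8_211 : checkTreeT T t8_211 = true := and_trueT c9_211 c9_467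

theorem c7_83 : checkTreeT T t7_83 = true := and_trueT c8_83 c8_211

theorem c6_19 : checkTreeT T t6_19 = true := and_trueT c7_19 c7_83

theorem c9_51 : checkTreeT T t9_51 = true := by decide +kernel

theorem c9_307 : checkTreeT T t9_307 = true := by decide +kernel

theorem c8_51 : checkTreeT T t8_51 = true := and_trueT c9_51 c9_307

theorem c9_179 : checkTreeT T t9_179 = true := by decide +kernel

theorem c9_435 : checkTreeT T t9_435 = true := by decide +kernel

theorem c8_179 : checkTreeT T t8_179 = true := and_trueT c9_179 c9_435

theorem c7_51 : checkTreeT T t7_51 = true := and_trueT c8_51 c8_179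

theorem c9_115 : checkTreeT T t9_115 = true := by decide +kernel

theorem c9_371 : checkTreeT T t9_371 = true := by decide +kernel

theorem c8_115 : checkTreeT T t8_115 = true := and_trueT c9_115 c9_371

theorem c9_243 : checkTreeT T t9_243 = true := by decide +kernel

theorem c9_499 : checkTreeT T t9_499 = true := by decide +kernel

theorem c8_243 : checkTreeT T t8_243 = true := and_trueT c9_243 c9_499

theorem c7_115 : checkTreeT T t7_115 = true := and_trueT c8_115 c8_243

theorem c6_51 : checkTreeT T t6_51 = true := and_trueT c7_51 c7_115

theorem c5_19 : checkTreeT T t5_19 = true := and_trueT c6_19 c6_51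

theorem c4_3 : checkTreeT T t4_3 = true := and_trueT c5_3 c5_19

theorem c9_11 : checkTreeT T t9_11 = true := by decide +kernel

theorem c9_267 : checkTreeT T t9_267 = true := by decide +kernel

theorem c8_11 : checkTreeT T t8_11 = true := and_trueT c9_11 c9_267

theorem c9_139 : checkTreeT T t9_139 = true := by decide +kernel

theorem c9_395 : checkTreeT T t9_395 = true := by decide +kernel

theorem c8_139 : checkTreeT T t8_139 = true := and_trueT c9_139 c9_395

theorem c7_11 : checkTreeT T t7_11 = true := and_trueT c8_11 c8_139

theorem c9_75 : checkTreeT T t9_75 = true := by decide +kernel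

theorem c9_331 : checkTreeT T t9_331 = true := by decide +kernel

theorem c8_75 : checkTreeT T t8_75 = true := and_trueT c9_75 c9_331

theorem c9_203 : checkTreeT T t9_203 = true := by decide +kernel

theorem c9_459 : checkTreeT T t9_459 = true := by decide +kernel

theorem c8_203 : checkTreeT T t8_203 = true := and_trueT c9_203 c9_459

theorem c7_75 : checkTreeT T t7_75 = true := and_trueT c8_75 c8_203

theorem c6_11 : checkTreeT T t6_11 = true := and_trueT c7_11 c7_75

theorem c9_43 : checkTreeT T t9_43 = true := by decide +kernel

theorem c9_299 : checkTreeT T t9_299 = true := by decide +kernel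

theorem c8_43 : checkTreeT T t8_43 = true := and_trueT c9_43 c9_299

theorem c9_171 : checkTreeT T t9_171 = true := by decide +kernel

theorem c9_427 : checkTreeT T t9_427 = true := by decide +kernel

theorem c8_171 : checkTreeT T t8_171 = true := and_trueT c9_171 c9_427

theorem c7_43 : checkTreeT T t7_43 = true := and_trueT c8_43 c8_171

theorem c9_107 : checkTreeT T t9_107 = true := by decide +kernel

theorem c9_363 : checkTreeT T t9_363 = true := by decide +kernel

theorem c8_107 : checkTreeT T t8_107 = true := and_trueT c9_107 c9_363

theorem c9_235 : checkTreeT T t9_235 = true := by decide +kernel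

theorem c9_491 : checkTreeT T t9_491 = true := by decide +kernel

theorem c8_235 : checkTreeT T t8_235 = true := and_trueT c9_235 c9_491

theorem c7_107 : checkTreeT T t7_107 = true := and_trueT c8_107 c8_235

theorem c6_43 : checkTreeT T t6_43 = true := and_trueT c7_43 c7_107

theorem c5_11 : checkTreeT T t5_11 = true := and_trueT c6_11 c6_43

theorem c9_27 : checkTreeT T t9_27 = true := by decide +kernel

theorem c9_283 : checkTreeT T t9_283 = true := by decide +kernel

theorem c8_27 : checkTreeT T t8_27 = true := and_trueT c9_27 c9_283

theorem c9_155 : checkTreeT T t9_155 = true := by decide +kernel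

theorem c9_411 : checkTreeT T t9_411 = true := by decide +kernel

theorem c8_155 : checkTreeT T t8_155 = true := and_trueT c9_155 c9_411

theorem c7_27 : checkTreeT T t7_27 = true := and_trueT c8_27 c8_155

theorem c9_91 : checkTreeT T t9_91 = true := by decide +kernel

theorem c9_347 : checkTreeT T t9_347 = true := by decide +kernel

theorem c8_91 : checkTreeT T t8_91 = true := and_trueT c9_91 c9_347

theorem c9_219 : checkTreeT T t9_219 = true := by decide +kernel

theorem c9_475 : checkTreeT T t9_475 = true := by decide +kernel

theorem c8_219 : checkTreeT T t8_219 = true := and_trueT c9_219 c9_475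

theorem c7_91 : checkTreeT T t7_91 = true := and_trueT c8_91 c8_219

theorem c6_27 : checkTreeT T t6_27 = true := and_trueT c7_27 c7_91

theorem c9_59 : checkTreeT T t9_59 = true := by decide +kernel

theorem c9_315 : checkTreeT T t9_315 = true := by decide +kernel

theorem c8_59 : checkTreeT T t8_59 = true := and_trueT c9_59 c9_315

theorem c9_187 : checkTreeT T t9_187 = true := by decide +kernel

theorem c9_443 : checkTreeT T t9_443 = true := by decide +kernel

theorem c8_187 : checkTreeT T t8_187 = true := and_trueT c9_187 c9_443

theorem c7_59 : checkTreeT T t7_59 = true := and_trueT c8_59 c8_187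

theorem c9_123 : checkTreeT T t9_123 = true := by decide +kernel

theorem c9_379 : checkTreeT T t9_379 = true := by decide +kernel

theorem c8_123 : checkTreeT T t8_123 = true := and_trueT c9_123 c9_379

theorem c9_251 : checkTreeT T t9_251 = true := by decide +kernel

theorem c9_507 : checkTreeT T t9_507 = true := by decide +kernel

theorem c8_251 : checkTreeT T t8_251 = true := and_trueT c9_251 c9_507

theorem c7_123 : checkTreeT T t7_123 = true := and_trueT c8_123 c8_251

theorem c6_59 : checkTreeT T t6_59 = true := and_trueT c7_59 c7_123

theorem c5_27 : checkTreeT T t5_27 = true := and_trueT c6_27 c6_59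

theorem c4_11 : checkTreeT T t4_11 = true := and_trueT c5_11 c5_27

theorem c3_3 : checkTreeT T t3_3 = true := and_trueT c4_3 c4_11

end Vale.Agent.P062.Data
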