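import Vale.Agent.P062.Data.T

namespace Vale.Agent.P062.Data

theorem c9_4 : checkTreeT T t9_4 = true := by decide +kernel

theorem c9_260 : checkTreeT T t9_260 = true := by decide +kernel

theorem c8_4 : checkTreeT T t8_4 = true := and_trueT c9_4 c9_260

theorem c9_132 : checkTreeT T t9_132 = true := by decide +kernel

theorem c9_388 : checkTreeT T t9_388 = true := by decide +kernel

theorem c8_132 : checkTreeT T t8_132 = true := and_trueT c9_132 c9_388

theorem c7_4 : checkTreeT T t7_4 = true := and_trueT c8_4 c8_132

theorem c9_68 : checkTreeT T t9_68 = true := by decide +kernel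

theorem c9_324 : checkTreeT T t9_324 = true := by decide +kernel

theorem c8_68 : checkTreeT T t8_68 = true := and_trueT c9_68 c9_324

theorem c9_196 : checkTreeT T t9_196 = true := by decide +kernel

theorem c9_452 : checkTreeT T t9_452 = true := by decide +kernel

theorem c8_196 : checkTreeT T t8_196 = true := and_trueT c9_196 c9_452

theorem c7_68 : checkTreeT T t7_68 = true := and_trueT c8_68 c8_196

theorem c6_4 : checkTreeT T t6_4 = true := and_trueT c7_4 c7_68

theorem c9_36 : checkTreeT T t9_36 = true := by decide +kernel

theorem c9_292 : checkTreeT T t9_292 = true := by decide +kernel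

theorem c8_36 : checkTreeT T t8_36 = true := and_trueT c9_36 c9_292

theorem c9_164 : checkTreeT T t9_164 = true := by decide +kernel

theorem c9_420 : checkTreeT T t9_420 = true := by decide +kernel

theorem c8_164 : checkTreeT T t8_164 = true := and_trueT c9_164 c9_420

theorem c7_36 : checkTreeT T t7_36 = true := and_trueT c8_36 c8_164

theorem c9_100 : checkTreeT T t9_100 = true := by decide +kernel

theorem c9_356 : checkTreeT T t9_356 = true := by decide +kernel

theorem c8_100 : checkTreeT T t8_100 = true := and_trueT c9_100 c9_356

theorem c9_228 : checkTreeT T t9_228 = true := by decide +kernel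

theorem c9_484 : checkTreeT T t9_484 = true := by decide +kernel

theorem c8_228 : checkTreeT T t8_228 = true := and_trueT c9_228 c9_484

theorem c7_100 : checkTreeT T t7_100 = true := and_trueT c8_100 c8_228

theorem c6_36 : checkTreeT T t6_36 = true := and_trueT c7_36 c7_100

theorem c5_4 : checkTreeT T t5_4 = true := and_trueT c6_4 c6_36

theorem c9_20 : checkTreeT T t9_20 = true := by decide +kernel

theorem c9_276 : checkTreeT T t9_276 = true := by decide +kernel

theorem c8_20 : checkTreeT T t8_20 = true := and_trueT c9_20 c9_276

theorem c9_148 : checkTreeT T t9_148 = true := by decide +kernel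

theorem c9_404 : checkTreeT T t9_404 = true := by decide +kernel

theorem c8_148 : checkTreeT T t8_148 = true := and_trueT c9_148 c9_404

theorem c7_20 : checkTreeT T t7_20 = true := and_trueT c8_20 c8_148

theorem c9_84 : checkTreeT T t9_84 = true := by decide +kernel

theorem c9_340 : checkTreeT T t9_340 = true := by decide +kernel

theorem c8_84 : checkTreeT T t8_84 = true := and_trueT c9_84 c9_340

theorem c9_212 : checkTreeT T t9_212 = true := by decide +kernel

theorem c9_468 : checkTreeT T t9_468 = true := by decide +kernel

theorem c8_212 : checkTreeT T t8_212 = true := and_trueT c9_212 c9_468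

theorem c7_84 : checkTreeT T t7_84 = true := and_trueT c8_84 c8_212

theorem c6_20 : checkTreeT T t6_20 = true := and_trueT c7_20 c7_84

theorem c9_52 : checkTreeT T t9_52 = true := by decide +kernel

theorem c9_308 : checkTreeT T t9_308 = true := by decide +kernel

theorem c8_52 : checkTreeT T t8_52 = true := and_trueT c9_52 c9_308

theorem c9_180 : checkTreeT T t9_180 = true := by decide +kernel

theorem c9_436 : checkTreeT T t9_436 = true := by decide +kernel

theorem c8_180 : checkTreeT T t8_180 = true := and_trueT c9_180 c9_436

theorem c7_52 : checkTreeT T t7_52 = true := and_trueT c8_52 c8_180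

theorem c9_116 : checkTreeT T t9_116 = true := by decide +kernel

theorem c9_372 : checkTreeT T t9_372 = true := by decide +kernel

theorem c8_116 : checkTreeT T t8_116 = true := and_trueT c9_116 c9_372

theorem c9_244 : checkTreeT T t9_244 = true := by decide +kernel

theorem c9_500 : checkTreeT T t9_500 = true := by decide +kernel

theorem c8_244 : checkTreeT T t8_244 = true := and_trueT c9_244 c9_500

theorem c7_116 : checkTreeT T t7_116 = true := and_trueT c8_116 c8_244

theorem c6_52 : checkTreeT T t6_52 = true := and_trueT c7_52 c7_116

theorem c5_20 : checkTreeT T t5_20 = true := and_trueT c6_20 c6_52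

theorem c4_4 : checkTreeT T t4_4 = true := and_trueT c5_4 c5_20

theorem c9_12 : checkTreeT T t9_12 = true := by decide +kernel

theorem c9_268 : checkTreeT T t9_268 = true := by decide +kernel

theorem c8_12 : checkTreeT T t8_12 = true := and_trueT c9_12 c9_268

theorem c9_140 : checkTreeT T t9_140 = true := by decide +kernel

theorem c9_396 : checkTreeT T t9_396 = true := by decide +kernel

theorem c8_140 : checkTreeT T t8_140 = true := and_trueT c9_140 c9_396

theorem c7_12 : checkTreeT T t7_12 = true := and_trueT c8_12 c8_140

theorem c9_76 : checkTreeT T t9_76 = true := by decide +kernel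

theorem c9_332 : checkTreeT T t9_332 = true := by decide +kernel

theorem c8_76 : checkTreeT T t8_76 = true := and_trueT c9_76 c9_332

theorem c9_204 : checkTreeT T t9_204 = true := by decide +kernel

theorem c9_460 : checkTreeT T t9_460 = true := by decide +kernel

theorem c8_204 : checkTreeT T t8_204 = true := and_trueT c9_204 c9_460

theorem c7_76 : checkTreeT T t7_76 = true := and_trueT c8_76 c8_204

theorem c6_12 : checkTreeT T t6_12 = true := and_trueT c7_12 c7_76

theorem c9_44 : checkTreeT T t9_44 = true := by decide +kernel

theorem c9_300 : checkTreeT T t9_300 = true := by decide +kernel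

theorem c8_44 : checkTreeT T t8_44 = true := and_trueT c9_44 c9_300

theorem c9_172 : checkTreeT T t9_172 = true := by decide +kernel

theorem c9_428 : checkTreeT T t9_428 = true := by decide +kernel

theorem c8_172 : checkTreeT T t8_172 = true := and_trueT c9_172 c9_428

theorem c7_44 : checkTreeT T t7_44 = true := and_trueT c8_44 c8_172

theorem c9_108 : checkTreeT T t9_108 = true := by decide +kernel

theorem c9_364 : checkTreeT T t9_364 = true := by decide +kernel

theorem c8_108 : checkTreeT T t8_108 = true := and_trueT c9_108 c9_364

theorem c9_236 : checkTreeT T t9_236 = true := by decide +kernel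

theorem c9_492 : checkTreeT T t9_492 = true := by decide +kernel

theorem c8_236 : checkTreeT T t8_236 = true := and_trueT c9_236 c9_492

theorem c7_108 : checkTreeT T t7_108 = true := and_trueT c8_108 c8_236

theorem c6_44 : checkTreeT T t6_44 = true := and_trueT c7_44 c7_108

theorem c5_12 : checkTreeT T t5_12 = true := and_trueT c6_12 c6_44

theorem c9_28 : checkTreeT T t9_28 = true := by decide +kernel

theorem c9_284 : checkTreeT T t9_284 = true := by decide +kernel

theorem c8_28 : checkTreeT T t8_28 = true := and_trueT c9_28 c9_284

theorem c9_156 : checkTreeT T t9_156 = true := by decide +kernel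

theorem c9_412 : checkTreeT T t9_412 = true := by decide +kernel

theorem c8_156 : checkTreeT T t8_156 = true := and_trueT c9_156 c9_412

theorem c7_28 : checkTreeT T t7_28 = true := and_trueT c8_28 c8_156

theorem c9_92 : checkTreeT T t9_92 = true := by decide +kernel

theorem c9_348 : checkTreeT T t9_348 = true := by decide +kernel

theorem c8_92 : checkTreeT T t8_92 = true := and_trueT c9_92 c9_348

theorem c9_220 : checkTreeT T t9_220 = true := by decide +kernel

theorem c9_476 : checkTreeT T t9_476 = true := by decide +kernel

theorem c8_220 : checkTreeT T t8_220 = true := and_trueT c9_220 c9_476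

theorem c7_92 : checkTreeT T t7_92 = true := and_trueT c8_92 c8_220

theorem c6_28 : checkTreeT T t6_28 = true := and_trueT c7_28 c7_92

theorem c9_60 : checkTreeT T t9_60 = true := by decide +kernel

theorem c9_316 : checkTreeT T t9_316 = true := by decide +kernel

theorem c8_60 : checkTreeT T t8_60 = true := and_trueT c9_60 c9_316

theorem c9_188 : checkTreeT T t9_188 = true := by decide +kernel

theorem c9_444 : checkTreeT T t9_444 = true := by decide +kernel

theorem c8_188 : checkTreeT T t8_188 = true := and_trueT c9_188 c9_444

theorem c7_60 : checkTreeT T t7_60 = true := and_trueT c8_60 c8_188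

theorem c9_124 : checkTreeT T t9_124 = true := by decide +kernel

theorem c9_380 : checkTreeT T t9_380 = true := by decide +kernel

theorem c8_124 : checkTreeT T t8_124 = true := and_trueT c9_124 c9_380

theorem c9_252 : checkTreeT T t9_252 = true := by decide +kernel

theorem c9_508 : checkTreeT T t9_508 = true := by decide +kernel

theorem c8_252 : checkTreeT T t8_252 = true := and_trueT c9_252 c9_508

theorem c7_124 : checkTreeT T t7_124 = true := and_trueT c8_124 c8_252

theorem c6_60 : checkTreeT T t6_60 = true := and_trueT c7_60 c7_124

theorem c5_28 : checkTreeT T t5_28 = true := and_trueT c6_28 c6_60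

theorem c4_12 : checkTreeT T t4_12 = true := and_trueT c5_12 c5_28

theorem c3_4 : checkTreeT T t3_4 = true := and_trueT c4_4 c4_12

end Vale.Agent.P062.Data
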