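import Vale.Agent.P062.Data.T

namespace Vale.Agent.P062.Data

theorem c9_5 : checkTreeT T t9_5 = true := by decide +kernel

theorem c9_261 : checkTreeT T t9_261 = true := by decide +kernel

theorem c8_5 : checkTreeT T t8_5 = true := and_trueT c9_5 c9_261

theorem c9_133 : checkTreeT T t9_133 = true := by decide +kernel

theorem c9_389 : checkTreeT T t9_389 = true := by decide +kernel

theorem c8_133 : checkTreeT T t8_133 = true := and_trueT c9_133 c9_389

theorem c7_5 : checkTreeT T t7_5 = true := and_trueT c8_5 c8_133

theorem c9_69 : checkTreeT T t9_69 = true := by decide +kernel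

theorem c9_325 : checkTreeT T t9_325 = true := by decide +kernel

theorem c8_69 : checkTreeT T t8_69 = true := and_trueT c9_69 c9_325

theorem c9_197 : checkTreeT T t9_197 = true := by decide +kernel

theorem c9_453 : checkTreeT T t9_453 = true := by decide +kernel

theorem c8_197 : checkTreeT T t8_197 = true := and_trueT c9_197 c9_453

theorem c7_69 : checkTreeT T t7_69 = true := and_trueT c8_69 c8_197

theorem c6_5 : checkTreeT T t6_5 = true := and_trueT c7_5 c7_69

theorem c9_37 : checkTreeT T t9_37 = true := by decide +kernel

theorem c9_293 : checkTreeT T t9_293 = true := by decide +kernel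

theorem c8_37 : checkTreeT T t8_37 = true := and_trueT c9_37 c9_293

theorem c9_165 : checkTreeT T t9_165 = true := by decide +kernel

theorem c9_421 : checkTreeT T t9_421 = true := by decide +kernel

theorem c8_165 : checkTreeT T t8_165 = true := and_trueT c9_165 c9_421

theorem c7_37 : checkTreeT T t7_37 = true := and_trueT c8_37 c8_165

theorem c9_101 : checkTreeT T t9_101 = true := by decide +kernel

theorem c9_357 : checkTreeT T t9_357 = true := by decide +kernel

theorem c8_101 : checkTreeT T t8_101 = true := and_trueT c9_101 c9_357

theorem c9_229 : checkTreeT T t9_229 = true := by decide +kernel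

theorem c9_485 : checkTreeT T t9_485 = true := by decide +kernel

theorem c8_229 : checkTreeT T t8_229 = true := and_trueT c9_229 c9_485

theorem c7_101 : checkTreeT T t7_101 = true := and_trueT c8_101 c8_229

theorem c6_37 : checkTreeT T t6_37 = true := and_trueT c7_37 c7_101

theorem c5_5 : checkTreeT T t5_5 = true := and_trueT c6_5 c6_37

theorem c9_21 : checkTreeT T t9_21 = true := by decide +kernel

theorem c9_277 : checkTreeT T t9_277 = true := by decide +kernel

theorem c8_21 : checkTreeT T t8_21 = true := and_trueT c9_21 c9_277

theorem c9_149 : checkTreeT T t9_149 = true := by decide +kernel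

theorem c9_405 : checkTreeT T t9_405 = true := by decide +kernel

theorem c8_149 : checkTreeT T t8_149 = true := and_trueT c9_149 c9_405

theorem c7_21 : checkTreeT T t7_21 = true := and_trueT c8_21 c8_149

theorem c9_85 : checkTreeT T t9_85 = true := by decide +kernel

theorem c9_341 : checkTreeT T t9_341 = true := by decide +kernel

theorem c8_85 : checkTreeT T t8_85 = true := and_trueT c9_85 c9_341

theorem c9_213 : checkTreeT T t9_213 = true := by decide +kernel

theorem c9_469 : checkTreeT T t9_469 = true := by decide +kernel

theorem c8_213 : checkTreeT T t8_213 = true := and_trueT c9_213 c9_469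

theorem c7_85 : checkTreeT T t7_85 = true := and_trueT c8_85 c8_213

theorem c6_21 : checkTreeT T t6_21 = true := and_trueT c7_21 c7_85

theorem c9_53 : checkTreeT T t9_53 = true := by decide +kernel

theorem c9_309 : checkTreeT T t9_309 = true := by decide +kernel

theorem c8_53 : checkTreeT T t8_53 = true := and_trueT c9_53 c9_309

theorem c9_181 : checkTreeT T t9_181 = true := by decide +kernel

theorem c9_437 : checkTreeT T t9_437 = true := by decide +kernel

theorem c8_181 : checkTreeT T t8_181 = true := and_trueT c9_181 c9_437

theorem c7_53 : checkTreeT T t7_53 = true := and_trueT c8_53 c8_181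

theorem c9_117 : checkTreeT T t9_117 = true := by decide +kernel

theorem c9_373 : checkTreeT T t9_373 = true := by decide +kernel

theorem c8_117 : checkTreeT T t8_117 = true := and_trueT c9_117 c9_373

theorem c9_245 : checkTreeT T t9_245 = true := by decide +kernel

theorem c9_501 : checkTreeT T t9_501 = true := by decide +kernel

theorem c8_245 : checkTreeT T t8_245 = true := and_trueT c9_245 c9_501

theorem c7_117 : checkTreeT T t7_117 = true := and_trueT c8_117 c8_245

theorem c6_53 : checkTreeT T t6_53 = true := and_trueT c7_53 c7_117

theorem c5_21 : checkTreeT T t5_21 = true := and_trueT c6_21 c6_53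

theorem c4_5 : checkTreeT T t4_5 = true := and_trueT c5_5 c5_21

theorem c9_13 : checkTreeT T t9_13 = true := by decide +kernel

theorem c9_269 : checkTreeT T t9_269 = true := by decide +kernel

theorem c8_13 : checkTreeT T t8_13 = true := and_trueT c9_13 c9_269

theorem c9_141 : checkTreeT T t9_141 = true := by decide +kernel

theorem c9_397 : checkTreeT T t9_397 = true := by decide +kernel

theorem c8_141 : checkTreeT T t8_141 = true := and_trueT c9_141 c9_397

theorem c7_13 : checkTreeT T t7_13 = true := and_trueT c8_13 c8_141

theorem c9_77 : checkTreeT T t9_77 = true := by decide +kernel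

theorem c9_333 : checkTreeT T t9_333 = true := by decide +kernel

theorem c8_77 : checkTreeT T t8_77 = true := and_trueT c9_77 c9_333

theorem c9_205 : checkTreeT T t9_205 = true := by decide +kernel

theorem c9_461 : checkTreeT T t9_461 = true := by decide +kernel

theorem c8_205 : checkTreeT T t8_205 = true := and_trueT c9_205 c9_461

theorem c7_77 : checkTreeT T t7_77 = true := and_trueT c8_77 c8_205

theorem c6_13 : checkTreeT T t6_13 = true := and_trueT c7_13 c7_77

theorem c9_45 : checkTreeT T t9_45 = true := by decide +kernel

theorem c9_301 : checkTreeT T t9_301 = true := by decide +kernel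

theorem c8_45 : checkTreeT T t8_45 = true := and_trueT c9_45 c9_301

theorem c9_173 : checkTreeT T t9_173 = true := by decide +kernel

theorem c9_429 : checkTreeT T t9_429 = true := by decide +kernel

theorem c8_173 : checkTreeT T t8_173 = true := and_trueT c9_173 c9_429

theorem c7_45 : checkTreeT T t7_45 = true := and_trueT c8_45 c8_173

theorem c9_109 : checkTreeT T t9_109 = true := by decide +kernel

theorem c9_365 : checkTreeT T t9_365 = true := by decide +kernel

theorem c8_109 : checkTreeT T t8_109 = true := and_trueT c9_109 c9_365

theorem c9_237 : checkTreeT T t9_237 = true := by decide +kernel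

theorem c9_493 : checkTreeT T t9_493 = true := by decide +kernel

theorem c8_237 : checkTreeT T t8_237 = true := and_trueT c9_237 c9_493

theorem c7_109 : checkTreeT T t7_109 = true := and_trueT c8_109 c8_237

theorem c6_45 : checkTreeT T t6_45 = true := and_trueT c7_45 c7_109

theorem c5_13 : checkTreeT T t5_13 = true := and_trueT c6_13 c6_45

theorem c9_29 : checkTreeT T t9_29 = true := by decide +kernel

theorem c9_285 : checkTreeT T t9_285 = true := by decide +kernel

theorem c8_29 : checkTreeT T t8_29 = true := and_trueT c9_29 c9_285

theorem c9_157 : checkTreeT T t9_157 = true := by decide +kernel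

theorem c9_413 : checkTreeT T t9_413 = true := by decide +kernel

theorem c8_157 : checkTreeT T t8_157 = true := and_trueT c9_157 c9_413

theorem c7_29 : checkTreeT T t7_29 = true := and_trueT c8_29 c8_157

theorem c9_93 : checkTreeT T t9_93 = true := by decide +kernel

theorem c9_349 : checkTreeT T t9_349 = true := by decide +kernel

theorem c8_93 : checkTreeT T t8_93 = true := and_trueT c9_93 c9_349

theorem c9_221 : checkTreeT T t9_221 = true := by decide +kernel

theorem c9_477 : checkTreeT T t9_477 = true := by decide +kernel

theorem c8_221 : checkTreeT T t8_221 = true := and_trueT c9_221 c9_477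

theorem c7_93 : checkTreeT T t7_93 = true := and_trueT c8_93 c8_221

theorem c6_29 : checkTreeT T t6_29 = true := and_trueT c7_29 c7_93

theorem c9_61 : checkTreeT T t9_61 = true := by decide +kernel

theorem c9_317 : checkTreeT T t9_317 = true := by decide +kernel

theorem c8_61 : checkTreeT T t8_61 = true := and_trueT c9_61 c9_317

theorem c9_189 : checkTreeT T t9_189 = true := by decide +kernel

theorem c9_445 : checkTreeT T t9_445 = true := by decide +kernel

theorem c8_189 : checkTreeT T t8_189 = true := and_trueT c9_189 c9_445

theorem c7_61 : checkTreeT T t7_61 = true := and_trueT c8_61 c8_189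

theorem c9_125 : checkTreeT T t9_125 = true := by decide +kernel

theorem c9_381 : checkTreeT T t9_381 = true := by decide +kernel

theorem c8_125 : checkTreeT T t8_125 = true := and_trueT c9_125 c9_381

theorem c9_253 : checkTreeT T t9_253 = true := by decide +kernel

theorem c9_509 : checkTreeT T t9_509 = true := by decide +kernel

theorem c8_253 : checkTreeT T t8_253 = true := and_trueT c9_253 c9_509

theorem c7_125 : checkTreeT T t7_125 = true := and_trueT c8_125 c8_253

theorem c6_61 : checkTreeT T t6_61 = true := and_trueT c7_61 c7_125

theorem c5_29 : checkTreeT T t5_29 = true := and_trueT c6_29 c6_61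

theorem c4_13 : checkTreeT T t4_13 = true := and_trueT c5_13 c5_29

theorem c3_5 : checkTreeT T t3_5 = true := and_trueT c4_5 c4_13

end Vale.Agent.P062.Data
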