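import Vale.Agent.P062.Data.T

namespace Vale.Agent.P062.Data

theorem c9_6 : checkTreeT T t9_6 = true := by decide +kernel

theorem c9_262 : checkTreeT T t9_262 = true := by decide +kernel

theorem c8_6 : checkTreeT T t8_6 = true := and_trueT c9_6 c9_262

theorem c9_134 : checkTreeT T t9_134 = true := by decide +kernel

theorem c9_390 : checkTreeT T t9_390 = true := by decide +kernel

theorem c8_134 : checkTreeT T t8_134 = true := and_trueT c9_134 c9_390

theorem c7_6 : checkTreeT T t7_6 = true := and_trueT c8_6 c8_134

theorem c9_70 : checkTreeT T t9_70 = true := by decide +kernel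

theorem c9_326 : checkTreeT T t9_326 = true := by decide +kernel

theorem c8_70 : checkTreeT T t8_70 = true := and_trueT c9_70 c9_326

theorem c9_198 : checkTreeT T t9_198 = true := by decide +kernel

theorem c9_454 : checkTreeT T t9_454 = true := by decide +kernel

theorem c8_198 : checkTreeT T t8_198 = true := and_trueT c9_198 c9_454

theorem c7_70 : checkTreeT T t7_70 = true := and_trueT c8_70 c8_198

theorem c6_6 : checkTreeT T t6_6 = true := and_trueT c7_6 c7_70

theorem c9_38 : checkTreeT T t9_38 = true := by decide +kernel

theorem c9_294 : checkTreeT T t9_294 = true := by decide +kernel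

theorem c8_38 : checkTreeT T t8_38 = true := and_trueT c9_38 c9_294

theorem c9_166 : checkTreeT T t9_166 = true := by decide +kernel

theorem c9_422 : checkTreeT T t9_422 = true := by decide +kernel

theorem c8_166 : checkTreeT T t8_166 = true := and_trueT c9_166 c9_422

theorem c7_38 : checkTreeT T t7_38 = true := and_trueT c8_38 c8_166

theorem c9_102 : checkTreeT T t9_102 = true := by decide +kernel

theorem c9_358 : checkTreeT T t9_358 = true := by decide +kernel

theorem c8_102 : checkTreeT T t8_102 = true := and_trueT c9_102 c9_358

theorem c9_230 : checkTreeT T t9_230 = true := by decide +kernel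

theorem c9_486 : checkTreeT T t9_486 = true := by decide +kernel

theorem c8_230 : checkTreeT T t8_230 = true := and_trueT c9_230 c9_486

theorem c7_102 : checkTreeT T t7_102 = true := and_trueT c8_102 c8_230

theorem c6_38 : checkTreeT T t6_38 = true := and_trueT c7_38 c7_102

theorem c5_6 : checkTreeT T t5_6 = true := and_trueT c6_6 c6_38

theorem c9_22 : checkTreeT T t9_22 = true := by decide +kernel

theorem c9_278 : checkTreeT T t9_278 = true := by decide +kernel

theorem c8_22 : checkTreeT T t8_22 = true := and_trueT c9_22 c9_278

theorem c9_150 : checkTreeT T t9_150 = true := by decide +kernel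

theorem c9_406 : checkTreeT T t9_406 = true := by decide +kernel

theorem c8_150 : checkTreeT T t8_150 = true := and_trueT c9_150 c9_406

theorem c7_22 : checkTreeT T t7_22 = true := and_trueT c8_22 c8_150

theorem c9_86 : checkTreeT T t9_86 = true := by decide +kernel

theorem c9_342 : checkTreeT T t9_342 = true := by decide +kernel

theorem c8_86 : checkTreeT T t8_86 = true := and_trueT c9_86 c9_342

theorem c9_214 : checkTreeT T t9_214 = true := by decide +kernel

theorem c9_470 : checkTreeT T t9_470 = true := by decide +kernel

theorem c8_214 : checkTreeT T t8_214 = true := and_trueT c9_214 c9_470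

theorem c7_86 : checkTreeT T t7_86 = true := and_trueT c8_86 c8_214

theorem c6_22 : checkTreeT T t6_22 = true := and_trueT c7_22 c7_86

theorem c9_54 : checkTreeT T t9_54 = true := by decide +kernel

theorem c9_310 : checkTreeT T t9_310 = true := by decide +kernel

theorem c8_54 : checkTreeT T t8_54 = true := and_trueT c9_54 c9_310

theorem c9_182 : checkTreeT T t9_182 = true := by decide +kernel

theorem c9_438 : checkTreeT T t9_438 = true := by decide +kernel

theorem c8_182 : checkTreeT T t8_182 = true := and_trueT c9_182 c9_438

theorem c7_54 : checkTreeT T t7_54 = true := and_trueT c8_54 c8_182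

theorem c9_118 : checkTreeT T t9_118 = true := by decide +kernel

theorem c9_374 : checkTreeT T t9_374 = true := by decide +kernel

theorem c8_118 : checkTreeT T t8_118 = true := and_trueT c9_118 c9_374

theorem c9_246 : checkTreeT T t9_246 = true := by decide +kernel

theorem c9_502 : checkTreeT T t9_502 = true := by decide +kernel

theorem c8_246 : checkTreeT T t8_246 = true := and_trueT c9_246 c9_502

theorem c7_118 : checkTreeT T t7_118 = true := and_trueT c8_118 c8_246

theorem c6_54 : checkTreeT T t6_54 = true := and_trueT c7_54 c7_118

theorem c5_22 : checkTreeT T t5_22 = true := and_trueT c6_22 c6_54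

theorem c4_6 : checkTreeT T t4_6 = true := and_trueT c5_6 c5_22

theorem c9_14 : checkTreeT T t9_14 = true := by decide +kernel

theorem c9_270 : checkTreeT T t9_270 = true := by decide +kernel

theorem c8_14 : checkTreeT T t8_14 = true := and_trueT c9_14 c9_270

theorem c9_142 : checkTreeT T t9_142 = true := by decide +kernel

theorem c9_398 : checkTreeT T t9_398 = true := by decide +kernel

theorem c8_142 : checkTreeT T t8_142 = true := and_trueT c9_142 c9_398

theorem c7_14 : checkTreeT T t7_14 = true := and_trueT c8_14 c8_142

theorem c9_78 : checkTreeT T t9_78 = true := by decide +kernel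

theorem c9_334 : checkTreeT T t9_334 = true := by decide +kernel

theorem c8_78 : checkTreeT T t8_78 = true := and_trueT c9_78 c9_334

theorem c9_206 : checkTreeT T t9_206 = true := by decide +kernel

theorem c9_462 : checkTreeT T t9_462 = true := by decide +kernel

theorem c8_206 : checkTreeT T t8_206 = true := and_trueT c9_206 c9_462

theorem c7_78 : checkTreeT T t7_78 = true := and_trueT c8_78 c8_206

theorem c6_14 : checkTreeT T t6_14 = true := and_trueT c7_14 c7_78

theorem c9_46 : checkTreeT T t9_46 = true := by decide +kernel

theorem c9_302 : checkTreeT T t9_302 = true := by decide +kernel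

theorem c8_46 : checkTreeT T t8_46 = true := and_trueT c9_46 c9_302

theorem c9_174 : checkTreeT T t9_174 = true := by decide +kernel

theorem c9_430 : checkTreeT T t9_430 = true := by decide +kernel

theorem c8_174 : checkTreeT T t8_174 = true := and_trueT c9_174 c9_430

theorem c7_46 : checkTreeT T t7_46 = true := and_trueT c8_46 c8_174

theorem c9_110 : checkTreeT T t9_110 = true := by decide +kernel

theorem c9_366 : checkTreeT T t9_366 = true := by decide +kernel

theorem c8_110 : checkTreeT T t8_110 = true := and_trueT c9_110 c9_366

theorem c9_238 : checkTreeT T t9_238 = true := by decide +kernel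

theorem c9_494 : checkTreeT T t9_494 = true := by decide +kernel

theorem c8_238 : checkTreeT T t8_238 = true := and_trueT c9_238 c9_494

theorem c7_110 : checkTreeT T t7_110 = true := and_trueT c8_110 c8_238

theorem c6_46 : checkTreeT T t6_46 = true := and_trueT c7_46 c7_110

theorem c5_14 : checkTreeT T t5_14 = true := and_trueT c6_14 c6_46

theorem c9_30 : checkTreeT T t9_30 = true := by decide +kernel

theorem c9_286 : checkTreeT T t9_286 = true := by decide +kernel

theorem c8_30 : checkTreeT T t8_30 = true := and_trueT c9_30 c9_286

theorem c9_158 : checkTreeT T t9_158 = true := by decide +kernel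

theorem c9_414 : checkTreeT T t9_414 = true := by decide +kernel

theorem c8_158 : checkTreeT T t8_158 = true := and_trueT c9_158 c9_414

theorem c7_30 : checkTreeT T t7_30 = true := and_trueT c8_30 c8_158

theorem c9_94 : checkTreeT T t9_94 = true := by decide +kernel

theorem c9_350 : checkTreeT T t9_350 = true := by decide +kernel

theorem c8_94 : checkTreeT T t8_94 = true := and_trueT c9_94 c9_350

theorem c9_222 : checkTreeT T t9_222 = true := by decide +kernel

theorem c9_478 : checkTreeT T t9_478 = true := by decide +kernel

theorem c8_222 : checkTreeT T t8_222 = true := and_trueT c9_222 c9_478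

theorem c7_94 : checkTreeT T t7_94 = true := and_trueT c8_94 c8_222

theorem c6_30 : checkTreeT T t6_30 = true := and_trueT c7_30 c7_94

theorem c9_62 : checkTreeT T t9_62 = true := by decide +kernel

theorem c9_318 : checkTreeT T t9_318 = true := by decide +kernel

theorem c8_62 : checkTreeT T t8_62 = true := and_trueT c9_62 c9_318

theorem c9_190 : checkTreeT T t9_190 = true := by decide +kernel

theorem c9_446 : checkTreeT T t9_446 = true := by decide +kernel

theorem c8_190 : checkTreeT T t8_190 = true := and_trueT c9_190 c9_446

theorem c7_62 : checkTreeT T t7_62 = true := and_trueT c8_62 c8_190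

theorem c9_126 : checkTreeT T t9_126 = true := by decide +kernel

theorem c9_382 : checkTreeT T t9_382 = true := by decide +kernel

theorem c8_126 : checkTreeT T t8_126 = true := and_trueT c9_126 c9_382

theorem c9_254 : checkTreeT T t9_254 = true := by decide +kernel

theorem c9_510 : checkTreeT T t9_510 = true := by decide +kernel

theorem c8_254 : checkTreeT T t8_254 = true := and_trueT c9_254 c9_510

theorem c7_126 : checkTreeT T t7_126 = true := and_trueT c8_126 c8_254

theorem c6_62 : checkTreeT T t6_62 = true := and_trueT c7_62 c7_126

theorem c5_30 : checkTreeT T t5_30 = true := and_trueT c6_30 c6_62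

theorem c4_14 : checkTreeT T t4_14 = true := and_trueT c5_14 c5_30

theorem c3_6 : checkTreeT T t3_6 = true := and_trueT c4_6 c4_14

end Vale.Agent.P062.Data
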