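import Vale.Agent.P062.Data.T

namespace Vale.Agent.P062.Data

theorem c9_7 : checkTreeT T t9_7 = true := by decide +kernel

theorem c9_263 : checkTreeT T t9_263 = true := by decide +kernel

theorem c8_7 : checkTreeT T t8_7 = true := and_trueT c9_7 c9_263

theorem c9_135 : checkTreeT T t9_135 = true := by decide +kernel

theorem c9_391 : checkTreeT T t9_391 = true := by decide +kernel

theorem c8_135 : checkTreeT T t8_135 = true := and_trueT c9_135 c9_391

theorem c7_7 : checkTreeT T t7_7 = true := and_trueT c8_7 c8_135

theorem c9_71 : checkTreeT T t9_71 = true := by decide +kernel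

theorem c9_327 : checkTreeT T t9_327 = true := by decide +kernel

theorem c8_71 : checkTreeT T t8_71 = true := and_trueT c9_71 c9_327

theorem c9_199 : checkTreeT T t9_199 = true := by decide +kernel

theorem c9_455 : checkTreeT T t9_455 = true := by decide +kernel

theorem c8_199 : checkTreeT T t8_199 = true := and_trueT c9_199 c9_455

theorem c7_71 : checkTreeT T t7_71 = true := and_trueT c8_71 c8_199

theorem c6_7 : checkTreeT T t6_7 = true := and_trueT c7_7 c7_71

theorem c9_39 : checkTreeT T t9_39 = true := by decide +kernel

theorem c9_295 : checkTreeT T t9_295 = true := by decide +kernel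

theorem c8_39 : checkTreeT T t8_39 = true := and_trueT c9_39 c9_295

theorem c9_167 : checkTreeT T t9_167 = true := by decide +kernel

theorem c9_423 : checkTreeT T t9_423 = true := by decide +kernel

theorem c8_167 : checkTreeT T t8_167 = true := and_trueT c9_167 c9_423

theorem c7_39 : checkTreeT T t7_39 = true := and_trueT c8_39 c8_167

theorem c9_103 : checkTreeT T t9_103 = true := by decide +kernel

theorem c9_359 : checkTreeT T t9_359 = true := by decide +kernel

theorem c8_103 : checkTreeT T t8_103 = true := and_trueT c9_103 c9_359

theorem c9_231 : checkTreeT T t9_231 = true := by decide +kernel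

theorem c9_487 : checkTreeT T t9_487 = true := by decide +kernel

theorem c8_231 : checkTreeT T t8_231 = true := and_trueT c9_231 c9_487

theorem c7_103 : checkTreeT T t7_103 = true := and_trueT c8_103 c8_231

theorem c6_39 : checkTreeT T t6_39 = true := and_trueT c7_39 c7_103

theorem c5_7 : checkTreeT T t5_7 = true := and_trueT c6_7 c6_39

theorem c9_23 : checkTreeT T t9_23 = true := by decide +kernel

theorem c9_279 : checkTreeT T t9_279 = true := by decide +kernel

theorem c8_23 : checkTreeT T t8_23 = true := and_trueT c9_23 c9_279

theorem c9_151 : checkTreeT T t9_151 = true := by decide +kernel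

theorem c9_407 : checkTreeT T t9_407 = true := by decide +kernel

theorem c8_151 : checkTreeT T t8_151 = true := and_trueT c9_151 c9_407

theorem c7_23 : checkTreeT T t7_23 = true := and_trueT c8_23 c8_151

theorem c9_87 : checkTreeT T t9_87 = true := by decide +kernel

theorem c9_343 : checkTreeT T t9_343 = true := by decide +kernel

theorem c8_87 : checkTreeT T t8_87 = true := and_trueT c9_87 c9_343

theorem c9_215 : checkTreeT T t9_215 = true := by decide +kernel

theorem c9_471 : checkTreeT T t9_471 = true := by decide +kernel

theorem c8_215 : checkTreeT T t8_215 = true := and_trueT c9_215 c9_471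

theorem c7_87 : checkTreeT T t7_87 = true := and_trueT c8_87 c8_215

theorem c6_23 : checkTreeT T t6_23 = true := and_trueT c7_23 c7_87

theorem c9_55 : checkTreeT T t9_55 = true := by decide +kernel

theorem c9_311 : checkTreeT T t9_311 = true := by decide +kernel

theorem c8_55 : checkTreeT T t8_55 = true := and_trueT c9_55 c9_311

theorem c9_183 : checkTreeT T t9_183 = true := by decide +kernel

theorem c9_439 : checkTreeT T t9_439 = true := by decide +kernel

theorem c8_183 : checkTreeT T t8_183 = true := and_trueT c9_183 c9_439

theorem c7_55 : checkTreeT T t7_55 = true := and_trueT c8_55 c8_183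

theorem c9_119 : checkTreeT T t9_119 = true := by decide +kernel

theorem c9_375 : checkTreeT T t9_375 = true := by decide +kernel

theorem c8_119 : checkTreeT T t8_119 = true := and_trueT c9_119 c9_375

theorem c9_247 : checkTreeT T t9_247 = true := by decide +kernel

theorem c9_503 : checkTreeT T t9_503 = true := by decide +kernel

theorem c8_247 : checkTreeT T t8_247 = true := and_trueT c9_247 c9_503

theorem c7_119 : checkTreeT T t7_119 = true := and_trueT c8_119 c8_247

theorem c6_55 : checkTreeT T t6_55 = true := and_trueT c7_55 c7_119

theorem c5_23 : checkTreeT T t5_23 = true := and_trueT c6_23 c6_55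

theorem c4_7 : checkTreeT T t4_7 = true := and_trueT c5_7 c5_23

theorem c9_15 : checkTreeT T t9_15 = true := by decide +kernel

theorem c9_271 : checkTreeT T t9_271 = true := by decide +kernel

theorem c8_15 : checkTreeT T t8_15 = true := and_trueT c9_15 c9_271

theorem c9_143 : checkTreeT T t9_143 = true := by decide +kernel

theorem c9_399 : checkTreeT T t9_399 = true := by decide +kernel

theorem c8_143 : checkTreeT T t8_143 = true := and_trueT c9_143 c9_399

theorem c7_15 : checkTreeT T t7_15 = true := and_trueT c8_15 c8_143

theorem c9_79 : checkTreeT T t9_79 = true := by decide +kernel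

theorem c9_335 : checkTreeT T t9_335 = true := by decide +kernel

theorem c8_79 : checkTreeT T t8_79 = true := and_trueT c9_79 c9_335

theorem c9_207 : checkTreeT T t9_207 = true := by decide +kernel

theorem c9_463 : checkTreeT T t9_463 = true := by decide +kernel

theorem c8_207 : checkTreeT T t8_207 = true := and_trueT c9_207 c9_463

theorem c7_79 : checkTreeT T t7_79 = true := and_trueT c8_79 c8_207

theorem c6_15 : checkTreeT T t6_15 = true := and_trueT c7_15 c7_79

theorem c9_47 : checkTreeT T t9_47 = true := by decide +kernel

theorem c9_303 : checkTreeT T t9_303 = true := by decide +kernel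

theorem c8_47 : checkTreeT T t8_47 = true := and_trueT c9_47 c9_303

theorem c9_175 : checkTreeT T t9_175 = true := by decide +kernel

theorem c9_431 : checkTreeT T t9_431 = true := by decide +kernel

theorem c8_175 : checkTreeT T t8_175 = true := and_trueT c9_175 c9_431

theorem c7_47 : checkTreeT T t7_47 = true := and_trueT c8_47 c8_175

theorem c9_111 : checkTreeT T t9_111 = true := by decide +kernel

theorem c9_367 : checkTreeT T t9_367 = true := by decide +kernel

theorem c8_111 : checkTreeT T t8_111 = true := and_trueT c9_111 c9_367

theorem c9_239 : checkTreeT T t9_239 = true := by decide +kernel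

theorem c9_495 : checkTreeT T t9_495 = true := by decide +kernel

theorem c8_239 : checkTreeT T t8_239 = true := and_trueT c9_239 c9_495

theorem c7_111 : checkTreeT T t7_111 = true := and_trueT c8_111 c8_239

theorem c6_47 : checkTreeT T t6_47 = true := and_trueT c7_47 c7_111

theorem c5_15 : checkTreeT T t5_15 = true := and_trueT c6_15 c6_47

theorem c9_31 : checkTreeT T t9_31 = true := by decide +kernel

theorem c9_287 : checkTreeT T t9_287 = true := by decide +kernel

theorem c8_31 : checkTreeT T t8_31 = true := and_trueT c9_31 c9_287

theorem c9_159 : checkTreeT T t9_159 = true := by decide +kernel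

theorem c9_415 : checkTreeT T t9_415 = true := by decide +kernel

theorem c8_159 : checkTreeT T t8_159 = true := and_trueT c9_159 c9_415

theorem c7_31 : checkTreeT T t7_31 = true := and_trueT c8_31 c8_159

theorem c9_95 : checkTreeT T t9_95 = true := by decide +kernel

theorem c9_351 : checkTreeT T t9_351 = true := by decide +kernel

theorem c8_95 : checkTreeT T t8_95 = true := and_trueT c9_95 c9_351

theorem c9_223 : checkTreeT T t9_223 = true := by decide +kernel

theorem c9_479 : checkTreeT T t9_479 = true := by decide +kernel

theorem c8_223 : checkTreeT T t8_223 = true := and_trueT c9_223 c9_479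

theorem c7_95 : checkTreeT T t7_95 = true := and_trueT c8_95 c8_223

theorem c6_31 : checkTreeT T t6_31 = true := and_trueT c7_31 c7_95

theorem c9_63 : checkTreeT T t9_63 = true := by decide +kernel

theorem c9_319 : checkTreeT T t9_319 = true := by decide +kernel

theorem c8_63 : checkTreeT T t8_63 = true := and_trueT c9_63 c9_319

theorem c9_191 : checkTreeT T t9_191 = true := by decide +kernel

theorem c9_447 : checkTreeT T t9_447 = true := by decide +kernel

theorem c8_191 : checkTreeT T t8_191 = true := and_trueT c9_191 c9_447

theorem c7_63 : checkTreeT T t7_63 = true := and_trueT c8_63 c8_191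

theorem c9_127 : checkTreeT T t9_127 = true := by decide +kernel

theorem c9_383 : checkTreeT T t9_383 = true := by decide +kernel

theorem c8_127 : checkTreeT T t8_127 = true := and_trueT c9_127 c9_383

theorem c9_255 : checkTreeT T t9_255 = true := by decide +kernel

theorem c9_511 : checkTreeT T t9_511 = true := by decide +kernel

theorem c8_255 : checkTreeT T t8_255 = true := and_trueT c9_255 c9_511

theorem c7_127 : checkTreeT T t7_127 = true := and_trueT c8_127 c8_255

theorem c6_63 : checkTreeT T t6_63 = true := and_trueT c7_63 c7_127

theorem c5_31 : checkTreeT T t5_31 = true := and_trueT c6_31 c6_63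

theorem c4_15 : checkTreeT T t4_15 = true := and_trueT c5_15 c5_31

theorem c3_7 : checkTreeT T t3_7 = true := and_trueT c4_7 c4_15

end Vale.Agent.P062.Data
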